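import Crest.Agent.X262.Cb72.Sel
import Crest.Agent.X262.Conc78.Defs
import Crest.Agent.X262.End66.Eqi

/-!
# Row 262, road B (helper72): the common kernel at the concave end
-/

set_option autoImplicit false
set_option linter.unusedSectionVars false

noncomputable section

namespace Crest.Agent.X262.Cb72

open Crest.Agent.X277 Crest.Agent.X277.BD Crest.Agent.X277.BD.Cyc
open Crest.Agent.X262.Hb Crest.Agent.X262.Vb Crest.Agent.X262.Tree87 Crest.Agent.X262.Conc78
open Crest.Agent.X262.End66 (dp dp_mul jac_eq pv_mul)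
open Crest.Agent.X262.Bub96.Tr (dot)

variable {J : Type} [Fintype J] [DecidableEq J] {io : J → Type} [∀ j, Fintype (io j)]
  [∀ j, DecidableEq (io j)] {A A' P Q I : Type} [Fintype A] [Fintype A'] [Fintype P] [Fintype Q]
  [Fintype I] {E : Type} [Field E] [Algebra ℂ E]

theorem mulVec_jac (T : Tgt io A) (y : Pnt io E) (w : Vr io → E) (a : A) :
    (pM (jacP T) y).mulVec w a = dp y w (T.F a) := rfl

theorem dp_X (y : Pnt io E) (w : Vr io → E) (v : Vr io) : dp y w (MvPolynomial.X v) = w v := by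
  classical
  simp [dp, pv, MvPolynomial.pderiv_X, Pi.single_apply, apply_ite]

theorem dp_sub (y : Pnt io E) (w : Vr io → E) (p q : MvPolynomial (Vr io) ℂ) :
    dp y w (p - q) = dp y w p - dp y w q := by
  simp only [dp, pv, map_sub, sub_mul, Finset.sum_sub_distrib]

theorem mulVec_wdM [DecidableEq P] (t : P → MvPolynomial (Vr io) ℂ) (y : Pnt io E) (a : P → E)
    (b : P × P) : (pM (wdM t) y).mulVec a b = a b.1 * pv y (t b.2) - a b.2 * pv y (t b.1) := by
  have h : ∀ x, pM (wdM t) y b x = (if x = b.1 then pv y (t b.2) else 0) -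
      if x = b.2 then pv y (t b.1) else 0 := fun x => by
    simp only [pM, wdM, pv, map_sub]
    split_ifs <;> simp
  simp [Matrix.mulVec, dotProduct, h, mul_sub, Finset.sum_sub_distrib, mul_comm]

theorem exists_of_wedge {a s : P → E} {p : P} (hp : s p ≠ 0) (h : ∀ b b', a b * s b' = a b' * s b) :
    ∃ l : E, l • s = a :=
  ⟨a p / s p, funext fun b => by
    rw [Pi.smul_apply, smul_eq_mul, div_mul_eq_mul_div, h, mul_div_cancel_right₀ _ hp]⟩

theorem rank_wdM [DecidableEq P] {t : P → MvPolynomial (Vr io) ℂ} {y : Pnt io E} {p : P}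
    (hp : pv y (t p) ≠ 0) : Module.finrank E (pR (wdM t) y) + 1 = Fintype.card P := by
  have h : pK (wdM t) y = E ∙ fun b => pv y (t b) := by
    ext a
    rw [Submodule.mem_span_singleton]
    constructor
    · exact fun h => exists_of_wedge hp fun b b' =>
        sub_eq_zero.1 ((mulVec_wdM t y a (b, b')).symm.trans (congrFun h (b, b')))
    · rintro ⟨l, rfl⟩
      exact funext fun b => (mulVec_wdM t y _ b).trans (by simp; ring)
  rw [← finrank_pR_add_pK (wdM t) y, h, finrank_span_singleton (Function.ne_iff.2 ⟨p, hp⟩)]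

theorem rank_rows {γ : P → A → MvPolynomial (Vr io) ℂ} {g : Q → P}
    (h : ∀ b, b ∉ Set.range g → ∀ a, γ b a = 0) (y : Pnt io E) :
    Module.finrank E (pR γ y) = Module.finrank E (pR (fun c => γ (g c)) y) := by
  have h1 : pK γ y = pK (fun c => γ (g c)) y := by
    ext w
    refine ⟨fun hw => funext fun c => congrFun hw (g c), fun hw => funext fun b => ?_⟩
    by_cases hb : b ∈ Set.range g
    · obtain ⟨c, rfl⟩ := hb
      exact congrFun hw c
    · exact Finset.sum_eq_zero fun a _ => by simp [pM, h b hb a, pv]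
  have h2 := finrank_pR_add_pK γ y
  have h3 := finrank_pR_add_pK (fun c => γ (g c)) y
  rw [h1] at h2
  omega

theorem rank_sel (γ : P → A → MvPolynomial (Vr io) ℂ) (g : Q → P) (y : Pnt io E) :
    Module.finrank E (pR (fun c => γ (g c)) y) +
      Module.finrank E (pR γ y ⊓ pK (sel io g) y : Submodule E (P → E)) =
      Module.finrank E (pR γ y) := by
  rw [← mm_sel, pR_mm]
  exact finrank_map_add_inf _ _

variable (n : Cn io) (T : Tgt io A)

/-- the variables `ξ_p` -/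
def xv (p : n.KL) : Vr io := ⟨n.jC, n.f (some p)⟩

theorem xv_inj : Function.Injective (xv n) := fun _ _ h =>
  Option.some_injective _ (n.f.injective (eq_of_heq (Sigma.mk.inj h).2))

theorem exists_xv (a : n.KL → E) : ∃ w : Vr io → E, ∀ p, w (xv n p) = a p :=
  ⟨Function.extend (xv n) a 0, fun p => (xv_inj n).extend_apply a 0 p⟩

variable {y : Pnt io E}

theorem dp_xT (w : Vr io → E) (p : n.KL) : dp y w (n.xT.F p) = w (xv n p) := dp_X y w _

theorem dp_uT (h : n.xT.On y) (w : Vr io → E) (b : n.KL × n.KL) : dp y w (n.uT.F b) =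
    w (xv n b.1) * pv y (n.tp b.2) - w (xv n b.2) * pv y (n.tp b.1) := by
  have h0 : ∀ p, pv y (n.xi p) = 0 := h
  have h1 : ∀ p, dp y w (n.xi p) = w (xv n p) := dp_xT n w
  change dp y w (n.xi b.1 * n.tp b.2 - n.xi b.2 * n.tp b.1) = _
  rw [dp_sub, dp_mul, dp_mul, h0, h0, h1, h1]
  ring

theorem pR_xT (y : Pnt io E) : pR (jacP n.xT) y = ⊤ :=
  eq_top_iff.2 fun a _ => by
    obtain ⟨w, hw⟩ := exists_xv n a
    exact ⟨w, funext fun p => (dp_xT n w p).trans (hw p)⟩

theorem pR_uT (h : n.xT.On y) : pR (jacP n.uT) y = pR (wdM n.tp) y := by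
  ext u
  constructor
  · rintro ⟨w, rfl⟩
    exact ⟨fun p => w (xv n p), funext fun b => (mulVec_wdM _ _ _ b).trans (dp_uT n h w b).symm⟩
  · rintro ⟨a, rfl⟩
    obtain ⟨w, hw⟩ := exists_xv n a
    exact ⟨w, funext fun b => (dp_uT n h w b).trans (by
      rw [hw, hw]; exact (mulVec_wdM _ _ _ b).symm)⟩

theorem exists_tp (hy : NZ y) : ∃ p, pv y (n.tp p) ≠ 0 := by
  obtain ⟨k, hk⟩ := hy n.jU
  obtain ⟨l, hl⟩ := hy n.jS
  exact ⟨(k, l), by simpa [Cn.tp, pv] using ⟨hk, hl⟩⟩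

theorem ex_D (y : Pnt io E) : pR (jacP (n.TD T)) y ⊓ pK (sel io Sum.inr) y =
    pR (cut (xv n) (jacP (n.TD T))) y := by
  ext u
  rw [Submodule.mem_inf, mem_pK_sel, mem_pR_cut]
  constructor
  · rintro ⟨⟨w, rfl⟩, h⟩
    exact ⟨w, fun p => (dp_xT n w p).symm.trans (h p), rfl⟩
  · rintro ⟨w, h, rfl⟩
    exact ⟨⟨w, rfl⟩, fun p => (dp_xT n w p).trans (h p)⟩

theorem ex_B (hv : n.Nv T) (hy : NZ y) (hO : (n.TD T).On y) :
    pR (jacP (n.TB T)) y ⊓ pK (sel io Sum.inr) y = pR (cut (xv n) (jacP (n.TB T))) y := by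
  have hx : n.xT.On y := fun p => hO (.inr p)
  ext u
  rw [Submodule.mem_inf, mem_pK_sel, mem_pR_cut]
  constructor
  · rintro ⟨⟨w, rfl⟩, h⟩
    obtain ⟨w₀, h1, h2⟩ := hv E y hy (by
      rintro (a | p)
      · exact hO (.inl (.inl a))
      · exact hx p)
    obtain ⟨p, hp⟩ := exists_tp n hy
    obtain ⟨l, hl⟩ := exists_of_wedge (a := fun p => w (xv n p)) (s := fun p => pv y (n.tp p)) hp
      fun b b' => sub_eq_zero.1 ((dp_uT n hx w (b, b')).symm.trans (h (b, b')))
    have h3 : (pM (jacP (n.TB T)) y).mulVec w₀ = 0 := funext fun a => by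
      rcases a with a | b
      · exact (jac_eq T y w₀ a).symm.trans (congrFun h1 a)
      · refine (dp_uT n hx w₀ b).trans ?_
        rw [show w₀ (xv n b.1) = _ from h2 _, show w₀ (xv n b.2) = _ from h2 _, mul_comm, sub_self]
        rfl
    refine ⟨w - l • w₀, fun p => ?_, ?_⟩
    · rw [Pi.sub_apply, Pi.smul_apply, show w₀ (xv n p) = _ from h2 _]
      exact sub_eq_zero.2 (congrFun hl p).symm
    · rw [Matrix.mulVec_sub, Matrix.mulVec_smul, h3, smul_zero, sub_zero]
      rfl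
  · rintro ⟨w, h, rfl⟩
    exact ⟨⟨w, rfl⟩, fun b => (dp_uT n hx w b).trans (by rw [h, h, zero_mul, zero_mul, sub_self])⟩

theorem rows_D (b : (A ⊕ n.KL × n.KL) ⊕ n.KL) (hb : b ∉ Set.range Sum.inl) (v : Vr io) :
    cut (xv n) (jacP (n.TD T)) b v = 0 := by
  classical
  rcases b with b | p
  · exact (hb ⟨b, rfl⟩).elim
  · unfold cut
    split_ifs with h
    · rfl
    · exact MvPolynomial.pderiv_X_of_ne fun e => h ⟨p, e⟩

variable {c : ℕ} {d : J → ℕ}

theorem exT_B (hR : End66.Rk (n.TB T) c d) (hv : n.Nv T) :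
    ExT (n.TD T) d (cut (xv n) (jacP (n.TB T))) (jacP (n.TB T)) (sel io Sum.inr)
      (c - (Fintype.card n.KL - 1)) c := by
  intro k _ _ _ t ht hd hO x
  have h1 := hR k t ht hd (fun x a => hO x (.inl a)) x
  have h2 := ex_B n T hv (nz_ev t ht x) (hO x)
  have h3 : Module.finrank k (pR (jacP n.uT) (t.ev x)) + _ = _ :=
    rank_sel (jacP (n.TB T)) Sum.inr (t.ev x)
  obtain ⟨p, hp⟩ := exists_tp n (nz_ev t ht x)
  have h4 := rank_wdM hp
  rw [← pR_uT n fun p => hO x (.inr p)] at h4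
  rw [Nm_eq] at h1
  rw [h2, h1] at h3
  exact ⟨by omega, h1, h2⟩

theorem exT_D (hR : End66.Rk (n.TB T) c d) (hv : n.Nv T) :
    ExT (n.TD T) d (cut (xv n) (jacP (n.TD T))) (jacP (n.TD T)) (sel io Sum.inr)
      (c - (Fintype.card n.KL - 1)) (Fintype.card n.KL + (c - (Fintype.card n.KL - 1))) := by
  intro k _ _ _ t ht hd hO x
  have h1 := (rank_rows (rows_D n T) (t.ev x)).trans (exT_B n T hR hv k t ht hd hO x).r1
  have h3 : Module.finrank k (pR (jacP n.xT) (t.ev x)) + _ = _ :=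
    rank_sel (jacP (n.TD T)) Sum.inr (t.ev x)
  rw [ex_D, h1, pR_xT, finrank_top, Module.finrank_fintype_fun_eq_card] at h3
  exact ⟨h1, h3.symm, ex_D n T _⟩

theorem K0_eq (z : Cfg io I E) : n.K0 T z = Rb (n.TD T).k (cut (xv n) (jacP (n.TD T))) z := by
  ext σ
  simp only [Cn.K0, Eb_eq, Submodule.mem_inf, mem_Rb, ← ex_D, mem_pK_sel, LinearMap.mem_ker,
    funext_iff, forall_and, and_assoc]
  exact and_congr_right fun _ => and_congr_right fun _ =>
    ⟨fun h q p => h (p, q), fun h x => h x.2 x.1⟩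

theorem cp_xT {B : Th} (hB : B.Ax) [Algebra.EssFiniteType ℂ E] {z : Cfg io I E} (hd : d n.jC = 0)
    (hz : TL d 1 z) (hO : z.On n.xT) :
    B.cp (z.ea n.xT) (z.Eb n.xT) = (-Polynomial.X) ^ Fintype.card n.KL := by
  have hk : ∀ j, n.kx j ≤ 1 := fun j => by
    rw [Cn.kx, Pi.single_apply]; split_ifs <;> simp
  have h0 : ∀ q p, z.y q n.jC (n.f (some p)) = 0 := fun q p => by
    simpa [Cn.xT, Cn.xi, pv] using hO q p
  have h1 : ∀ q V, (lw n.kx (z.y q)).val V = V.v (z.y q n.jC (n.f none)) := fun q V => by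
    obtain ⟨i, hi⟩ := exists_ln (hz.nz q) n.jC V
    obtain ⟨i, rfl⟩ := n.f.surjective i
    rw [Cn.kx, lw_single, ← hi]
    rcases i with _ | p
    · rfl
    · exact (val_ne _ V (by rw [← hi, h0, map_zero])).elim
  have h2 : Module.finrank E (z.V n.kx) = 1 := by
    rw [hz.finrank_V hk]
    simp [dot, Cn.kx, Pi.single_apply, hd]
  have h3 : (fun q => z.y q n.jC (n.f none)) ∈ z.V n.kx := by
    simpa [pv, Cn.kx] using hz.pv_mem_V (mh_vr n.jC (n.f none)) hk
  have h4 : (fun q => z.y q n.jC (n.f none)) ≠ 0 := by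
    obtain ⟨u, -, hu⟩ := Submodule.exists_mem_ne_zero_of_ne_bot (p := z.V n.kx) fun h => by
      rw [h, finrank_bot] at h2
      exact zero_ne_one h2
    obtain ⟨q, -⟩ := Function.ne_iff.1 hu
    exact Function.ne_iff.2 ⟨q, fun h => val_ne _ (RZ.top ℂ E) (by
      rw [h1 q, show z.y q n.jC (n.f none) = 0 from h, map_zero])⟩
  have h5 : z.Eb n.xT = Am (fun _ : n.KL => n.kx) z := by
    rw [Eb_eq, ← Rb_idM]
    exact Rb_congr fun q => (pR_xT n _).trans (pR_idM _).symm
  rw [h5]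
  exact cp_Am hB (Submodule.eq_of_le_of_finrank_eq
    ((Submodule.span_singleton_le_iff_mem _ _).2 h3) (by rw [finrank_span_singleton h4, h2])).symm
    h4 h1

/-- **CONC (b)** -/
theorem bStmt : BStmt := by
  intro B hB J _ _ io _ _ A _ n T c d hd hR hv
  obtain ⟨N₁, h1⟩ := End66.exists_bound (n.TB T) ((Fintype.card (A ⊕ n.KL × n.KL) + 1) ^ 2)
  obtain ⟨N₂, h2⟩ := End66.exists_bound (n.TD T)
    ((Fintype.card ((A ⊕ n.KL × n.KL) ⊕ n.KL) + 1) ^ 2)
  refine ⟨N₁ + N₂ + 1, fun ξ hξ p z hz hO => ?_⟩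
  have h3 := hz ▸ tlr_red hξ p
  have h4 : ∀ a j, (n.TD T).k a j ≤ N₁ + N₂ + 1 := fun a j =>
    ((Nat.le_mul_of_pos_left _ (by positivity)).trans (h2 a j)).trans (by omega)
  have hx : z.On n.xT := fun q p => hO q (.inr p)
  have h5 := whit_sel hB (T := n.TB T) (U := n.uT) (g := Sum.inr) (fun _ => rfl) (fun _ => rfl)
    (hz_cut (hz_jac _) _) (exT_B n T hR hv) h4 (fun a j => (h1 a j).trans (by omega)) h3 hO
  have h6 := whit_sel hB (T := n.TD T) (U := n.xT) (g := Sum.inr) (fun _ => rfl) (fun _ => rfl)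
    (hz_cut (hz_jac _) _) (exT_D n T hR hv) h4 (fun a j => (h2 a j).trans (by omega)) h3 hO
  have h7 : z.Eb n.uT = n.HQ z := (Eb_eq _ _).trans (Rb_congr fun q => pR_uT n (hx q))
  rw [cp_xT n hB hd.C (h3.1.mono (by omega)) hx] at h6
  rw [h7] at h5
  rw [K0_eq]
  refine ⟨h5.trans (congrArg (· * _) ?_), h6⟩
  exact cp_rows hB (kk := (n.TD T).k) Sum.inl_injective (rows_D n T) z

end Crest.Agent.X262.Cb72
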