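import Crest.Agent.X262.Cb72.Whit

/-!
# Row 262, road B (helper72): coordinate projections of normal spaces
-/

set_option autoImplicit false
set_option linter.unusedSectionVars false

noncomputable section

namespace Crest.Agent.X262.Cb72

open Crest.Agent.X277 Crest.Agent.X277.BD Crest.Agent.X277.BD.Cyc Polynomial
open Crest.Agent.X262.Hb Crest.Agent.X262.Vb Crest.Agent.X262.Tree87
open Crest.Agent.X262.Bub96 (Tr)
open Crest.Agent.X262.Bub96.Tr (dot)

variable {J : Type} [Fintype J] [DecidableEq J] {io : J → Type} [∀ j, Fintype (io j)]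
  [∀ j, DecidableEq (io j)] {A₀ A A' P Q R I : Type} [Fintype A₀] [Fintype A] [Fintype A']
  [Fintype P] [Fintype Q] [Fintype R] [Fintype I] {E : Type} [Field E] [Algebra ℂ E]

open Classical in
/-- the matrix which selects the coordinates `g c` -/
def sel (io : J → Type) (g : Q → P) : Q → P → MvPolynomial (Vr io) ℂ :=
  fun c b => if g c = b then 1 else 0

theorem hz_sel (kk : P → J → ℕ) (g : Q → P) : HZ (fun c => kk (g c)) kk (sel io g) := fun c b => by
  unfold sel
  split_ifs with h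
  · subst h; exact MZ.one.congr fun j => by simp
  · exact MZ.zero _

theorem mulVec_sel (g : Q → P) (y : Pnt io E) (u : P → E) :
    (pM (sel io g) y).mulVec u = fun c => u (g c) := by
  classical
  funext c
  simp [pM, sel, Matrix.mulVec, dotProduct, pv, apply_ite]

theorem mem_pK_sel {g : Q → P} {y : Pnt io E} {u : P → E} :
    u ∈ pK (sel io g) y ↔ ∀ c, u (g c) = 0 := by
  change (pM (sel io g) y).mulVec u = 0 ↔ _
  rw [mulVec_sel]; exact funext_iff

theorem mm_sel (g : Q → P) (γ : P → A → MvPolynomial (Vr io) ℂ) :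
    mm (sel io g) γ = fun c => γ (g c) := by
  classical
  funext c a
  simp [mm, sel]

open Classical in
/-- the columns `ξ r` are deleted -/
def cut (ξ : R → A) (γ : P → A → MvPolynomial (Vr io) ℂ) : P → A → MvPolynomial (Vr io) ℂ :=
  fun b a => if a ∈ Set.range ξ then 0 else γ b a

theorem hz_cut {kk : P → J → ℕ} {k0 : A → J → ℕ} {γ : P → A → MvPolynomial (Vr io) ℂ}
    (h : HZ kk k0 γ) (ξ : R → A) : HZ kk k0 (cut ξ γ) := fun b a => by
  unfold cut
  split_ifs
  · exact MZ.zero _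
  · exact h b a

theorem mem_pR_cut {ξ : R → A} {γ : P → A → MvPolynomial (Vr io) ℂ} {y : Pnt io E} {u : P → E} :
    u ∈ pR (cut ξ γ) y ↔ ∃ w, (∀ r, w (ξ r) = 0) ∧ (pM γ y).mulVec w = u := by
  classical
  constructor
  · rintro ⟨w, rfl⟩
    refine ⟨fun a => if a ∈ Set.range ξ then 0 else w a, fun r => if_pos ⟨r, rfl⟩, _root_.funext fun b =>
      Finset.sum_congr rfl fun a _ => ?_⟩
    by_cases ha : a ∈ Set.range ξ <;> simp [pM, cut, ha, pv]
  · rintro ⟨w, hw, rfl⟩
    refine ⟨w, _root_.funext fun b => Finset.sum_congr rfl fun a _ => ?_⟩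
    by_cases ha : a ∈ Set.range ξ
    · obtain ⟨r, rfl⟩ := ha
      simp [hw]
    · simp [pM, cut, ha]

variable {B : Th} (hB : B.Ax) [Algebra.EssFiniteType ℂ E] {d : J → ℕ} {N n' n : ℕ} {z : Cfg io I E}
include hB

/-- Whitney formula for a subsystem of equations -/
theorem whit_sel {T₀ : Tgt io A₀} {T : Tgt io A} {U : Tgt io A'} {g : A' → A}
    (hF : ∀ a, T.F (g a) = U.F a) (hg : ∀ a, T.k (g a) = U.k a) {kk : P → J → ℕ}
    {γ : A → P → MvPolynomial (Vr io) ℂ} (h : HZ T.k kk γ)
    (e : ExT T₀ d γ (jacP T) (sel io g) n' n) (hT : ∀ a j, T₀.k a j ≤ N)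
    (hk : ∀ a j, (Fintype.card A + 1) ^ 2 * T.k a j ≤ N) (hz : TLr d N z) (hO : z.On T₀) :
    B.cp (z.ea T) (z.Eb T) = B.cp (z.ea T) (Rb T.k γ z) * B.cp (z.ea U) (z.Eb U) := by
  have h1 := whit (hz_jac T) h (hz_sel T.k g) e hT hk (fun a j => le_of_succ_mul
    (m := Fintype.card A) (by rw [← mul_assoc, ← pow_two]; exact hk _ j)) hB hz hO
  rw [mm_sel, show (fun c => T.k (g c)) = U.k from _root_.funext hg,
    show (fun c => jacP T (g c)) = jacP U from _root_.funext fun c => _root_.funext fun v => by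
      rw [jacP, jacP, hF]] at h1
  rw [Eb_eq, Eb_eq]
  exact h1

/-- rows which vanish on the range can be deleted -/
theorem cp_rows {kk : P → J → ℕ} {γ : P → A → MvPolynomial (Vr io) ℂ} {g : Q → P}
    (hg : Function.Injective g) (h : ∀ b, b ∉ Set.range g → ∀ a, γ b a = 0) (z : Cfg io I E) :
    B.cp (la (fun c => kk (g c)) z) (Rb (fun c => kk (g c)) (fun c => γ (g c)) z) =
      B.cp (la kk z) (Rb kk γ z) := by
  classical
  have h0 : ∀ (y : Pnt io E) (w : A → E) b, b ∉ Set.range g → (pM γ y).mulVec w b = 0 :=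
    fun y w b hb => Finset.sum_eq_zero fun a _ => by simp [pM, h b hb a, pv]
  rw [← hB.cp_funLeft (a := la kk z) (U := Rb kk γ z) (g := Prod.map g id) fun x hx i hi => ?_]
  · congr 1
    ext σ
    constructor
    · intro hσ
      obtain ⟨h1, h2⟩ := mem_Rb.1 hσ
      refine ⟨fun x => Function.extend g (fun c => σ (c, x.2)) 0 x.1,
        mem_Rb.2 ⟨fun b => ?_, fun q => ?_⟩, _root_.funext fun x =>
          hg.extend_apply (fun c => σ (c, x.2)) 0 x.1⟩
      · by_cases hb : b ∈ Set.range g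
        · obtain ⟨c, rfl⟩ := hb
          simp only [hg.extend_apply]
          exact h1 c
        · simp only [Function.extend_apply' _ _ _ hb]
          exact zero_mem _
      · obtain ⟨w, hw⟩ := h2 q
        refine ⟨w, _root_.funext fun b => ?_⟩
        by_cases hb : b ∈ Set.range g
        · obtain ⟨c, rfl⟩ := hb
          simp only [hg.extend_apply]
          exact congrFun hw c
        · simp only [Function.extend_apply' _ _ _ hb]
          exact h0 _ w b hb
    · rintro ⟨σ, hσ, rfl⟩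
      obtain ⟨h1, h2⟩ := mem_Rb.1 hσ
      refine mem_Rb.2 ⟨fun c => h1 (g c), fun q => ?_⟩
      obtain ⟨w, hw⟩ := h2 q
      exact ⟨w, _root_.funext fun c => congrFun hw (g c)⟩
  · obtain ⟨w, hw⟩ := (mem_Rb.1 hx).2 i.2
    refine (congrFun hw i.1).symm.trans (h0 _ w _ ?_)
    rintro ⟨c, hc⟩
    exact hi ⟨(c, i.2), Prod.ext hc rfl⟩

/-- sections of a sum of trivial line bundles -/
theorem cp_Am {κ : J → ℕ} {s : I → E} (hV : z.V κ = E ∙ s) (h0 : s ≠ 0)
    (hs : ∀ q V, (lw κ (z.y q)).val V = V.v (s q)) :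
    B.cp (la (fun _ : R => κ) z) (Am (fun _ : R => κ) z) = (-X) ^ Fintype.card R := by
  obtain ⟨q₀, -⟩ := Function.ne_iff.1 h0
  have h1 : ∀ q, s q ≠ 0 := fun q h => val_ne _ (RZ.top ℂ E) (by rw [hs q, h, map_zero])
  let φ : (R → E) →ₗ[E] (R × I → E) := LinearMap.pi fun x => s x.2 • LinearMap.proj x.1
  have h2 : Am (fun _ : R => κ) z = (⊤ : Submodule E (R → E)).map φ := by
    ext σ
    simp only [mem_Am, hV, Submodule.mem_span_singleton]
    constructor
    · intro h
      choose a ha using h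
      exact ⟨a, trivial, _root_.funext fun x => (mul_comm _ _).trans (congrFun (ha x.1) x.2)⟩
    · rintro ⟨a, -, rfl⟩ r
      exact ⟨a r, _root_.funext fun q => mul_comm _ _⟩
  rw [h2, hB.cp_iso (a := fun _ => 0) fun V x _ => nm_congr fun c => ?_, hB.cp_top]
  · simp
  · have h3 : ∀ y : R × I, V.v (φ x y) ≤ c * (la (fun _ : R => κ) z y).val V ↔
        V.v (x y.1) ≤ c * (0 : BD ℂ E).val V := fun y => by
      change V.v (s y.2 * x y.1) ≤ c * (lw κ (z.y y.2)).val V ↔ _
      rw [hs, map_mul, mul_comm, val_zero, mul_one,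
        mul_le_mul_iff_left₀ (zero_lt_iff.2 (RZ.ne_zero_iff.2 (h1 _)))]
    simp only [h3]
    exact ⟨fun h r => h (r, q₀), fun h y => h y.1⟩

end Crest.Agent.X262.Cb72
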