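import Crest.Agent.X262.Tree87.Ses
import Crest.Agent.X262.Vb.Bas1
import Crest.Agent.X262.Hb.Sat2
import Crest.Agent.X262.Bub96.Lat

/-!
# Row 262, road B (helper72): the Whitney formula on tree-like configurations
-/

set_option autoImplicit false
set_option linter.unusedSectionVars false

noncomputable section

namespace Crest.Agent.X262.Cb72

open Crest.Agent.X277 Crest.Agent.X277.BD Crest.Agent.X277.BD.Cyc
open Crest.Agent.X262.Hb Crest.Agent.X262.Vb Crest.Agent.X262.Tree87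
open Crest.Agent.X262.Bub96 (Tr)
open Crest.Agent.X262.Node22 (chr chr_ne)

variable {J : Type} [Fintype J] [DecidableEq J] {io : J → Type} [∀ j, Fintype (io j)]
  [∀ j, DecidableEq (io j)] {A₀ A A' P Q I : Type} [Fintype A₀] [Fintype A] [Fintype A']
  [Fintype P] [Fintype Q] [Fintype I] {E E' : Type} [Field E] [Algebra ℂ E] [Field E']
  [Algebra ℂ E']

/-- the lines `O(kk b)` at the points -/
def la (kk : P → J → ℕ) (z : Cfg io I E) : P × I → BD ℂ E := fun x => lw (kk x.1) (z.y x.2)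

theorem ea_eq (T : Tgt io A) (z : Cfg io I E) : z.ea T = la T.k z := rfl

/-- exactness along all trees of degree `d` in the target -/
def ExT (T : Tgt io A₀) (d : J → ℕ) (γ' : P → A' → MvPolynomial (Vr io) ℂ)
    (γ : P → A → MvPolynomial (Vr io) ℂ) (ψ : Q → P → MvPolynomial (Vr io) ℂ) (n' n : ℕ) : Prop :=
  ∀ (k : Type) [Field k] [Algebra ℂ k] [IsAlgClosed k] (t : Tr k J io), t.OK → t.deg = d →
    (∀ x, T.On (t.ev x)) → ∀ x, Ex γ' γ ψ n' n (t.ev x)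

/-- the configuration and all its reductions are tree-like -/
def TLr (d : J → ℕ) (N : ℕ) (z : Cfg io I E) : Prop :=
  TL d N z ∧ ∀ V, TL d N (z.red (plV V))

theorem tl_geq {d : J → ℕ} {N : ℕ} {z z' : Cfg io I E} (h : Cfg.Geq z z') (hz : TL d N z) :
    TL d N z' := by
  obtain ⟨c, hc, rfl⟩ := h
  exact hz.gau hc

theorem tlr_red {K : Type} [Field K] [Algebra ℂ K] {d : J → ℕ} {N : ℕ} {ξ : Dat io d I K}
    (h : ξ.NrmUp N) (p : LP K E) : TLr d N (ξ.cfg.red p.toPl) :=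
  ⟨Bub96.tl_red h _, fun V => tl_geq (Cfg.red_comp p (LP.at V) fun _ => Bub96.nz_pt ξ _)
    (Bub96.tl_red h _)⟩

theorem TLr.geq {d : J → ℕ} {N : ℕ} {z z' : Cfg io I E} (hz : TLr d N z) (h : Cfg.Geq z z') :
    TLr d N z' :=
  ⟨tl_geq h hz.1, fun V => tl_geq (h.red hz.1.nz _) (hz.2 V)⟩

theorem TLr.mono {d : J → ℕ} {N N' : ℕ} {z : Cfg io I E} (hz : TLr d N z) (h : N' ≤ N) :
    TLr d N' z := ⟨hz.1.mono h, fun V => (hz.2 V).mono h⟩

variable {kk : P → J → ℕ} {k0 : A → J → ℕ} {k1 : A' → J → ℕ} {k2 : Q → J → ℕ}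
  {γ : P → A → MvPolynomial (Vr io) ℂ} {γ' : P → A' → MvPolynomial (Vr io) ℂ}
  {ψ : Q → P → MvPolynomial (Vr io) ℂ} {T : Tgt io A₀} {d : J → ℕ} {N n' n : ℕ}
  {z : Cfg io I E} {V : RZ ℂ E}

theorem nm_gau (hz : z.NZ) {c : I → J → E} (hc : ∀ q j, c q j ≠ 0) (V : RZ ℂ E) (σ : P × I → E) :
    nm (la kk (z.gau c)) V (fun x => chr (c x.2) (kk x.1) * σ x) = nm (la kk z) V σ := by
  rw [show la kk (z.gau c) = fun x => la kk z x + pr ℂ (chr (c x.2) (kk x.1)) from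
    funext fun x => lw_scl (hz x.2) (hc x.2) _]
  exact nm_scl (c := fun x : P × I => chr (c x.2) (kk x.1)) (fun x => chr_ne (hc x.2) _) _ _ _

theorem mpL_gau (hψ : HZ k2 kk ψ) {c : I → J → E} (hc : ∀ q j, c q j ≠ 0) (σ : P × I → E) :
    mpL ψ (z.gau c) (fun x => chr (c x.2) (kk x.1) * σ x) =
      fun x => chr (c x.2) (k2 x.1) * mpL ψ z σ x := by
  funext x
  have h1 := congrFun (hψ.mulVec_scl (hc x.2) (z.y x.2) fun b => σ (b, x.2)) x.1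
  rw [← mpL_at] at h1
  exact (congrFun (mpL_at ψ (z.gau c) _ x.2) x.1).trans h1

theorem nm_le_one (hz : z.Pr V) {σ : P × I → E} : nm (la kk z) V σ ≤ 1 ↔ ∀ x, σ x ∈ V.1 := by
  simp only [nm_le, la, (hz _).val_lw, mul_one, RZ.le_one_iff]

theorem mpL_red {p : Pl ℂ E ℂ E'} (hp : Lnr p) (hz : z.Pr p.V) {σ : P × I → E}
    (hσ : ∀ x, σ x ∈ p.V.1) (x : Q × I) : mpL ψ z σ x ∈ p.V.1 ∧
      p.r (mpL ψ z σ x) = mpL ψ (z.red0 p) (fun x => p.r (σ x)) x := by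
  have h1 : ∀ b, pv (z.y x.2) (ψ x.1 b) ∈ p.V.1 := fun b => pv_mem (fun j => (hz x.2 j).1) _
  rw [mpL_apply, mpL_apply]
  refine ⟨sum_mem fun b _ => mul_mem (h1 b) (hσ _), ?_⟩
  rw [r_sum _ fun b _ => mul_mem (h1 b) (hσ _)]
  exact Finset.sum_congr rfl fun b _ => by
    rw [Pl.r_mul (h1 b) (hσ _), r_pv hp fun j => (hz x.2 j).1]; rfl

theorem nm_mpL (hψ : HZ k2 kk ψ) (hz : z.NZ) (V : RZ ℂ E) (σ : P × I → E) :
    nm (la k2 z) V (mpL ψ z σ) ≤ nm (la kk z) V σ := by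
  refine nm_le_of_one (U := ⊤) (fun x _ hx => ?_) trivial
  have hP := Cfg.pr_nrm hz V
  rw [← nm_gau hz (Cfg.nrm_ne V z), nm_le_one hP] at hx
  rw [← nm_gau hz (Cfg.nrm_ne V z), ← mpL_gau hψ (Cfg.nrm_ne V z), nm_le_one hP]
  exact fun y => (mpL_red (p := plV V) (lnr_plV V) hP hx y).1

section

variable (h : HZ kk k0 γ) (h' : HZ kk k1 γ') (hψ : HZ k2 kk ψ) (e : ExT T d γ' γ ψ n' n)
  (hT : ∀ a j, T.k a j ≤ N) (hk : ∀ b j, (Fintype.card P + 1) ^ 2 * kk b j ≤ N)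
  (hk2 : ∀ c j, (Fintype.card P + 1) * k2 c j ≤ N)
include h h' hψ e hT hk hk2

theorem ses (hz : TL d N z) (hO : z.On T) :
    (Rb kk γ z).map (mpL ψ z) = Rb k2 (mm ψ γ) z ∧
      Rb kk γ z ⊓ LinearMap.ker (mpL ψ z) = Rb kk γ' z := by
  obtain ⟨k, _, _, _, ⟨D⟩⟩ := hz
  exact D.ses h h' hψ (e k D.t D.ok D.deg (D.on hT hO)) (fun b j => le_of_succ_mul
    (m := Fintype.card P) (by rw [← mul_assoc, ← pow_two]; exact hk b j)) hk2

theorem sur_pr (hz : TL d N z) (hP : z.Pr V) (hr : TL d N (z.red0 (plV V))) (hO : z.On T)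
    {σ : P × I → E} (hσ : σ ∈ Rb kk γ z) : ∃ u ∈ Rb kk γ z, mpL ψ z u = mpL ψ z σ ∧
      nm (la kk z) V u ≤ nm (la k2 z) V (mpL ψ z σ) := by
  have hy : ∀ q j i, z.y q j i ∈ (plV V).V.1 := fun q j => (hP q j).1
  have hO' : (z.red0 (plV V)).On T := on_red0 (lnr_plV V) hy hO
  have s1 := (ses h h' hψ e hT hk hk2 hz hO).1
  have s2 := (ses h h' hψ e hT hk hk2 hr hO').1
  obtain ⟨k, _, _, _, ⟨D⟩⟩ := hz
  obtain ⟨k', _, _, _, ⟨D'⟩⟩ := hr
  have e1 := e k D.t D.ok D.deg (D.on hT hO)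
  have e2 := e k' D'.t D'.ok D'.deg (D'.on hT hO')
  have h1 := Rb_red0 (lnr_plV V) hy D D' h (fun x => (e1 x).r2) (fun x => (e2 x).r2) hk
  have h2 : redS (plV V) (Rb k2 (mm ψ γ) z) ≤ Rb k2 (mm ψ γ) (z.red0 (plV V)) :=
    redS_Rb_le (lnr_plV V) hy fun q =>
      (D'.ex_of h h' hψ (e2 (D'.sp q))).r3.trans (D.ex_of h h' hψ (e1 (D.sp q))).r3.symm
  refine sur_of_rank (p := LP.at V) (g := fun _ => 1) (fun x => ?_)
    (fun x _ => nm_mpL hψ hP.nz V x) ?_ hσ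
  · rw [map_one]; exact ((hP x.2).val_lw _).symm
  · rw [s1, ← Tree87.finrank_redS (plV V)]
    refine Submodule.finrank_mono (h2.trans ?_)
    rw [← s2, h1, redS, Submodule.map_span]
    refine Submodule.span_mono ?_
    rintro _ ⟨_, ⟨u, h3, h4, rfl⟩, rfl⟩
    refine ⟨u, h3, (nm_le_one hP).2 h4, funext fun x => ?_⟩
    rw [div_one]
    exact (mpL_red (lnr_plV V) hP h4 x).2.symm

theorem ont (hz : TLr d N z) (hO : z.On T) : Ont (la kk z) (la k2 z) (mpL ψ z) (Rb kk γ z) := by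
  refine ⟨fun V x _ => nm_mpL hψ hz.1.nz V x, fun V x hx => ?_⟩
  have hc := Cfg.nrm_ne V z
  have hc' : ∀ x : P × I, chr (z.nrm V x.2) (kk x.1) ≠ 0 := fun x => chr_ne (hc x.2) _
  have h1 : (fun y => chr (z.nrm V y.2) (kk y.1) * x y) ∈ Rb kk γ (z.gau (z.nrm V)) := by
    rw [h.Rb_gau hc]; exact ⟨x, hx, rfl⟩
  obtain ⟨u, h2, h3, h4⟩ := sur_pr h h' hψ e hT hk hk2 (hz.1.gau hc) (Cfg.pr_nrm hz.1.nz V)
    (hz.2 V) ((Cfg.on_gau T hc).2 hO) h1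
  rw [h.Rb_gau hc] at h2
  obtain ⟨u, h2, rfl⟩ := h2
  change mpL ψ _ (fun y => chr (z.nrm V y.2) (kk y.1) * u y) = _ at h3
  change nm _ V (fun y => chr (z.nrm V y.2) (kk y.1) * u y) ≤ _ at h4
  rw [mpL_gau hψ hc, nm_gau hz.1.nz hc, nm_gau hz.1.nz hc] at h4
  rw [mpL_gau hψ hc, mpL_gau hψ hc] at h3
  exact ⟨u, h2, funext fun y => mul_left_cancel₀ (chr_ne (hc y.2) _) (congrFun h3 y), h4⟩

/-- **Whitney formula** for an exact sequence of generated bundles along trees -/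
theorem whit {B : Th} (hB : B.Ax) [Algebra.EssFiniteType ℂ E] (hz : TLr d N z) (hO : z.On T) :
    B.cp (la kk z) (Rb kk γ z) =
      B.cp (la kk z) (Rb kk γ' z) * B.cp (la k2 z) (Rb k2 (mm ψ γ) z) := by
  obtain ⟨s1, s2⟩ := ses h h' hψ e hT hk hk2 hz.1 hO
  rw [hB.cp_whitney (ont h h' hψ e hT hk hk2 hz hO), s1, s2]

end

end Crest.Agent.X262.Cb72
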